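import Vale.Agent.P082.Erg.Basic

/-!
# P082: one walk mixes finitely many anticommuting unitaries

The steps are `1`, the given unitaries, the diagonal sign unitaries of the matrix units and their cyclic shifts.
-/

namespace Vale.Agent.P082.Erg

open scoped InnerProductSpace
open Filter Topology Wit

universe u

variable {H : Type u} [NormedAddCommGroup H] [InnerProductSpace ℂ H] [CompleteSpace H]
variable {M : VonNeumannAlgebra H} {ξ : H}
variable {K : ℕ} {e : Fin K → Fin K → Alg M}

/-- A diagonal sign unitary. -/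
noncomputable def flipU (e : Fin K → Fin K → Alg M) (s : Fin K → Bool) : Alg M :=
  ∑ a, (if s a then 1 else -1 : ℂ) • e a a

/-- A cyclic shift of the units. -/
noncomputable def shiftU (e : Fin K → Fin K → Alg M) (k : Fin K) : Alg M :=
  ∑ a, e (a + k) a

theorem flipU_star (he : IsUnits M e) (s : Fin K → Bool) : star (flipU e s) = flipU e s := by
  simp only [flipU, star_sum, star_smul, he.star_eq]
  refine Finset.sum_congr rfl fun a _ => ?_
  split <;> simp

theorem flipU_unitary (he : IsUnits M e) (s : Fin K → Bool) :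
    flipU e s ∈ unitary (Alg M) := by
  have h : flipU e s * flipU e s = 1 := by
    simp only [flipU, Finset.sum_mul, Finset.mul_sum, smul_mul_assoc, mul_smul_comm, smul_smul,
      he.mul, smul_ite, smul_zero, Finset.sum_ite_eq, Finset.sum_ite_eq', Finset.mem_univ,
      if_true]
    conv_rhs => rw [← he.sum]
    refine Finset.sum_congr rfl fun a _ => ?_
    split <;> simp
  rw [Unitary.mem_iff, flipU_star he]
  exact ⟨h, h⟩

theorem shiftU_unitary [NeZero K] (he : IsUnits M e) (k : Fin K) :
    shiftU e k ∈ unitary (Alg M) := by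
  rw [Unitary.mem_iff]
  constructor
  · simp [shiftU, star_sum, he.star_eq, Finset.sum_mul, Finset.mul_sum, he.mul, he.sum]
  · simp [shiftU, star_sum, he.star_eq, Finset.sum_mul, Finset.mul_sum, he.mul]
    exact (Equiv.sum_comp (Equiv.addRight k) fun a => e a a).trans he.sum

theorem shiftU_conj [NeZero K] (he : IsUnits M e) (k b : Fin K) :
    star (shiftU e k) * e (b + k) (b + k) * shiftU e k = e b b := by
  simp [shiftU, star_sum, he.star_eq, Finset.sum_mul, Finset.mul_sum, he.mul]

theorem avg_signs (a b : Fin K) :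
    avg (fun s : Fin K → Bool => (if s a then 1 else -1 : ℂ) * if s b then 1 else -1) =
      if a = b then 1 else 0 := by
  rw [avg, smul_eq_mul]
  split_ifs with h
  · subst h
    rw [Finset.sum_congr rfl fun s _ => show ((if s a then 1 else -1 : ℂ) * _) = 1 by
      split <;> norm_num]
    simp
  · refine mul_eq_zero_of_right _ ?_
    have hinv : Function.Involutive fun s : Fin K → Bool => Function.update s a (!s a) :=
      fun s => by funext c; by_cases hc : c = a <;> simp [Function.update, hc]
    set f : (Fin K → Bool) → ℂ := fun s =>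
      (if s a then 1 else -1) * if s b then 1 else -1 with hf
    have hfl : ∀ s, f (Function.update s a (!s a)) = -f s := fun s => by
      simp only [hf, Function.update_self, Function.update_of_ne (Ne.symm h)]
      cases s a <;> cases s b <;> simp
    have h2 : ∑ s, f s = -∑ s, f s := by
      conv_lhs => rw [← Equiv.sum_comp (hinv.toPerm _) f]
      simp only [Function.Involutive.coe_toPerm, hfl, Finset.sum_neg_distrib]
    exact self_eq_neg.1 h2

/-- The compression to the diagonal of the units is the average over the sign unitaries. -/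
theorem avg_flip (he : IsUnits M e) (v : Alg M) :
    avg (fun s : Fin K → Bool => star (flipU e s) * v * flipU e s) =
      ∑ a, e a a * v * e a a := by
  simp only [avg, flipU_star he]
  simp only [flipU, Finset.sum_mul, Finset.mul_sum, smul_mul_assoc, mul_smul_comm, Finset.smul_sum,
    smul_smul]
  rw [Finset.sum_comm]
  refine Finset.sum_congr rfl fun a _ => ?_
  rw [Finset.sum_comm]
  have key : ∀ c, (Fintype.card (Fin K → Bool) : ℂ)⁻¹ *
      ∑ s : Fin K → Bool, ((if s a then 1 else -1 : ℂ) * if s c then 1 else -1) =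
        if a = c then 1 else 0 := fun c => by
    have := avg_signs (K := K) a c
    rwa [avg, smul_eq_mul] at this
  simp only [← Finset.sum_smul, ← Finset.mul_sum, key, ite_smul, one_smul, zero_smul,
    Finset.sum_ite_eq, Finset.mem_univ, if_true]

theorem tr_diag [NeZero K] (hξ : IsTrVec M ξ) (he : IsUnits M e) (a : Fin K) :
    tr ξ (e a a) = (K : ℂ)⁻¹ := by
  have hs : ∀ b, tr ξ (e b b) = tr ξ (e a a) := fun b => by
    calc tr ξ (e b b) = tr ξ (e b a * e a b) := by rw [he.mul]; simp
      _ = tr ξ (e a b * e b a) := tr_mul_comm hξ _ _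
      _ = tr ξ (e a a) := by rw [he.mul]; simp
  have h : ∑ b, tr ξ (e b b) = 1 := by
    rw [show ∑ b, tr ξ (e b b) = tr ξ (∑ b, e b b) by simp [tr, ev_sum, inner_sum], he.sum]
    show ⟪ξ, ξ⟫_ℂ = 1
    rw [inner_self_eq_norm_sq_to_K, hξ.norm]
    simp
  simp only [hs, Finset.sum_const, Finset.card_univ, Fintype.card_fin, nsmul_eq_mul] at h
  exact (eq_inv_of_mul_eq_one_right h)

variable (W : Walk M)

theorem conjAvg_one : W.conjAvg 1 = 1 := by
  simp [Walk.conjAvg, Unitary.mul_star_self_of_mem (W.unit _), Finset.sum_const,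
    ← Nat.cast_smul_eq_nsmul ℂ, smul_smul, inv_mul_cancel₀ (card_ne W)]

/-- Each diagonal unit returns to itself with weight `1/K²`. -/
theorem tendsto_diag [NeZero K] (hξ : IsTrVec M ξ) (he : IsUnits M e) (h1 : ∃ i, W.g i = 1)
    (hsh : ∀ k, ∃ i, W.g i = shiftU e k) (a : Fin K) :
    Tendsto (fun n => (⟪ev ξ (e a a), ev ξ (W.conjAvg^[n] (e a a))⟫_ℂ).re) atTop
      (𝓝 ((K : ℝ) ^ 2)⁻¹) := by
  have hK : (K : ℝ) ≠ 0 := by exact_mod_cast NeZero.ne K
  set x : ℕ → Fin K → ℝ := fun n b => (⟪ev ξ (e b b), ev ξ (W.conjAvg^[n] (e a a))⟫_ℂ).re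
    with hx
  have hsum : ∀ n, ∑ b, x n b = (K : ℝ)⁻¹ := fun n => by
    simp only [hx]
    rw [← Complex.re_sum, ← sum_inner, ← ev_sum, he.sum, inner_iterate W hξ,
      Function.iterate_fixed (conjAvg_one W)]
    rw [show ⟪ev ξ (1 : Alg M), ev ξ (e a a)⟫_ℂ = tr ξ (e a a) from rfl, tr_diag hξ he]
    simp
  have hd : ∀ k, Tendsto (fun n => x n a - x n (a + k)) atTop (𝓝 0) := fun k => by
    have h := (Complex.continuous_re.tendsto _).comp ((tendsto_const_nhds
      (x := ev ξ (e (a + k) (a + k)))).inner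
      (tendsto_step W hξ h1 (e a a) _ (hsh k)) (𝕜 := ℂ))
    rw [inner_zero_right, Complex.zero_re] at h
    refine h.congr fun n => ?_
    simp [hx, inner_sub_right, inner_conj hξ, shiftU_conj he]
  have htot : Tendsto (fun n => ((K : ℝ) ^ 2)⁻¹ + (K : ℝ)⁻¹ * ∑ k, (x n a - x n (a + k)))
      atTop (𝓝 ((K : ℝ) ^ 2)⁻¹) := by
    have h := ((tendsto_finsetSum Finset.univ fun k _ => hd k).const_mul (K : ℝ)⁻¹).const_add
      (((K : ℝ) ^ 2)⁻¹)
    rw [Finset.sum_const_zero, mul_zero, add_zero] at h
    exact h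
  refine htot.congr fun n => ?_
  have e1 : ∑ k, x n (a + k) = (K : ℝ)⁻¹ := by
    rw [← hsum n]; exact Equiv.sum_comp (Equiv.addLeft a) (x n)
  simp only [Finset.sum_sub_distrib, e1, Finset.sum_const, Finset.card_univ, Fintype.card_fin,
    nsmul_eq_mul]
  show _ = x n a
  field_simp
  ring

theorem sq_norm_diag_sum (hξ : IsTrVec M ξ) (he : IsUnits M e) (v : Alg M) :
    ‖ev ξ (∑ a, e a a * v * e a a)‖ ^ 2 =
      ∑ a, (⟪ev ξ (e a a), ev ξ (star v * e a a * v)⟫_ℂ).re := by
  have hp : ∀ a b, e a a * e b b = if a = b then e a a else 0 := fun a b => by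
    rw [he.mul]; split <;> simp_all
  rw [← inner_self_eq_norm_sq (𝕜 := ℂ), RCLike.re_to_complex]
  simp only [ev_sum, inner_sum, sum_inner, Complex.re_sum]
  refine Finset.sum_congr rfl fun a _ => (Finset.sum_eq_single a (fun b _ hb => ?_) (by simp)).trans ?_
  · rw [inner_ev_ev]
    simp only [star_mul, he.star_eq]
    rw [show e b b * (star v * e b b) * (e a a * v * e a a) =
      e b b * (star v * (e b b * e a a)) * v * e a a by simp only [mul_assoc], hp, if_neg hb]
    simp [tr, ev]
  · rw [inner_ev_ev, inner_ev_ev]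
    simp only [star_mul, he.star_eq]
    rw [show e a a * (star v * e a a) * (e a a * v * e a a) =
      e a a * (star v * (e a a * e a a) * v * e a a) by simp only [mul_assoc], hp, if_pos rfl,
      tr_mul_comm hξ, tr_mul_comm hξ (e a a)]
    congr 1
    rw [show star v * e a a * v * e a a * e a a = star v * e a a * v * (e a a * e a a) by
      simp only [mul_assoc], hp, if_pos rfl]

theorem avgR_le_sqrt {α : Type*} [Fintype α] (f : α → ℝ) :
    avgR f ≤ √(avgR fun a => f a ^ 2) := by
  refine Real.le_sqrt_of_sq_le ?_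
  simp only [avgR]
  rcases Nat.eq_zero_or_pos (Fintype.card α) with h | h
  · simp [h]
  · have hs := sq_sum_le_card_mul_sum_sq (s := Finset.univ) (f := f)
    rw [Finset.card_univ] at hs
    rw [mul_pow, sq (_ : ℝ)⁻¹, mul_assoc]
    refine mul_le_mul_of_nonneg_left ?_ (by positivity)
    rw [inv_mul_le_iff₀ (by exact_mod_cast h)]
    exact hs

theorem avgR_le_avgR {α : Type*} [Fintype α] {f g : α → ℝ} (h : ∀ a, f a ≤ g a) :
    avgR f ≤ avgR g :=
  mul_le_mul_of_nonneg_left (Finset.sum_le_sum fun a _ => h a) (by positivity)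

theorem small [NeZero K] (hξ : IsTrVec M ξ) (he : IsUnits M e) (h1 : ∃ i, W.g i = 1)
    (hfl : ∀ s, ∃ i, W.g i = flipU e s) (hsh : ∀ k, ∃ i, W.g i = shiftU e k) (c : Alg M)
    (hc : ∃ i, W.g i = c) :
    ∀ᶠ n₀ in atTop, ∀ᶠ n in atTop, avgR (fun y : Fin (2 * n₀) → Fin W.size =>
      ‖ev ξ (W.conjAvg^[n] (star c * W.word y * c))‖) ≤ 2 / √K := by
  have hK : (0 : ℝ) < K := by exact_mod_cast NeZero.pos K
  have hlim : Tendsto (fun n₀ => ∑ a, (⟪ev ξ (e a a),
      ev ξ (W.conjAvg^[2 * n₀] (e a a))⟫_ℂ).re) atTop (𝓝 ((K : ℝ)⁻¹)) := by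
    have h := tendsto_finsetSum Finset.univ fun a _ => tendsto_diag W hξ he h1 hsh a
    have h' := h.comp (tendsto_id.const_mul_atTop' (show 0 < 2 by norm_num))
    have hval : (∑ _a : Fin K, ((K : ℝ) ^ 2)⁻¹) = (K : ℝ)⁻¹ := by
      simp only [Finset.sum_const, Finset.card_univ, Fintype.card_fin, nsmul_eq_mul]
      field_simp
    rw [hval] at h'
    exact h'
  have hlt : (K : ℝ)⁻¹ < 2 / K := by rw [inv_eq_one_div]; gcongr; norm_num
  filter_upwards [hlim.eventually (eventually_lt_nhds hlt)] with n₀ hn₀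
  have hD : avgR (fun y : Fin (2 * n₀) → Fin W.size =>
      ‖ev ξ (∑ a, e a a * W.word y * e a a)‖) ≤ √(2 / K) := by
    refine (avgR_le_sqrt _).trans (Real.sqrt_le_sqrt (le_of_eq_of_le ?_ hn₀.le))
    simp only [avgR, sq_norm_diag_sum hξ he, Finset.mul_sum]
    rw [Finset.sum_comm]
    refine Finset.sum_congr rfl fun a _ => ?_
    rw [← avg_word W (2 * n₀) (e a a), avg, ev_smul, inner_smul_right, ev_sum, inner_sum,
      ← Finset.mul_sum, show ((Fintype.card (Fin (2 * n₀) → Fin W.size) : ℂ))⁻¹ =
        (((Fintype.card (Fin (2 * n₀) → Fin W.size) : ℝ)⁻¹ : ℝ) : ℂ) by push_cast; rfl,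
      Complex.re_ofReal_mul, Complex.re_sum]
  have hrest : ∀ v : Alg M,
      Tendsto (fun n => ‖ev ξ (W.conjAvg^[n] (star c * v * c - v))‖ +
        avgR fun s : Fin K → Bool =>
          ‖ev ξ (W.conjAvg^[n] (star (flipU e s) * v * flipU e s - v))‖) atTop (𝓝 0) := by
    intro v
    simpa [avgR] using (tendsto_norm_conj_sub W hξ h1 v c hc).add
      ((tendsto_finsetSum Finset.univ fun s _ =>
        tendsto_norm_conj_sub W hξ h1 v _ (hfl s)).const_mul
          ((Fintype.card (Fin K → Bool) : ℝ))⁻¹)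
  have hr : Tendsto (fun n => avgR fun y : Fin (2 * n₀) → Fin W.size =>
      ‖ev ξ (W.conjAvg^[n] (star c * W.word y * c - W.word y))‖ +
        avgR fun s : Fin K → Bool =>
          ‖ev ξ (W.conjAvg^[n] (star (flipU e s) * W.word y * flipU e s - W.word y))‖)
      atTop (𝓝 0) := by
    simpa [avgR] using (tendsto_finsetSum Finset.univ fun y _ => hrest (W.word y)).const_mul
      ((Fintype.card (Fin (2 * n₀) → Fin W.size) : ℝ))⁻¹
  have hs2 : √(2 / K) < 2 / √K := by
    rw [Real.sqrt_div (by norm_num : (0 : ℝ) ≤ 2)]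
    gcongr
    rw [Real.sqrt_lt' (by norm_num)]
    norm_num
  filter_upwards [hr.eventually (eventually_lt_nhds (sub_pos.2 hs2))] with n hn
  have hpt : ∀ v : Alg M, ‖ev ξ (W.conjAvg^[n] (star c * v * c))‖ ≤
      (‖ev ξ (W.conjAvg^[n] (star c * v * c - v))‖ + avgR fun s : Fin K → Bool =>
          ‖ev ξ (W.conjAvg^[n] (star (flipU e s) * v * flipU e s - v))‖) +
        ‖ev ξ (∑ a, e a a * v * e a a)‖ := by
    intro v
    have h3 : ‖ev ξ (W.conjAvg^[n] (∑ a, e a a * v * e a a - v))‖ ≤
        avgR fun s : Fin K → Bool =>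
          ‖ev ξ (W.conjAvg^[n] (star (flipU e s) * v * flipU e s - v))‖ := by
      rw [← avg_flip he v, avg,
        show (Fintype.card (Fin K → Bool) : ℂ)⁻¹ • (∑ s, star (flipU e s) * v * flipU e s) - v =
          (Fintype.card (Fin K → Bool) : ℂ)⁻¹ •
            ∑ s, (star (flipU e s) * v * flipU e s - v) by
          simp [Finset.sum_sub_distrib, smul_sub, Finset.sum_const, ← Nat.cast_smul_eq_nsmul ℂ,
            smul_smul],
        iterate_eq, map_smul, map_sum, ev_smul, ev_sum, norm_smul, avgR, norm_inv,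
        Complex.norm_natCast]
      simp only [← iterate_eq]
      gcongr
      exact norm_sum_le _ _
    have h4 := antitone_norm W hξ (∑ a, e a a * v * e a a) (Nat.zero_le n)
    simp only [Function.iterate_zero, id] at h4
    calc ‖ev ξ (W.conjAvg^[n] (star c * v * c))‖
        = ‖ev ξ (W.conjAvg^[n] (star c * v * c - v)) -
            ev ξ (W.conjAvg^[n] (∑ a, e a a * v * e a a - v)) +
            ev ξ (W.conjAvg^[n] (∑ a, e a a * v * e a a))‖ := by
          simp only [iterate_sub, ev_sub]; congr 1; abel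
      _ ≤ _ := (norm_add₃_le (a := _)).trans' (le_of_eq (by rw [sub_eq_add_neg])) |>.trans (by
          rw [norm_neg]; linarith)
  refine (avgR_le_avgR fun y => hpt (W.word y)).trans ?_
  simp only [avgR, Finset.sum_add_distrib, mul_add] at hn hD ⊢
  linarith

/-- The generators of the walk. -/
noncomputable def gens (e : Fin K → Fin K → Alg M) (l : List (Alg M × Alg M)) :
    Unit ⊕ (Fin l.length × Bool) ⊕ (Fin K → Bool) ⊕ Fin K → Alg M
  | .inl _ => 1
  | .inr (.inl (i, b)) => if b then (l.get i).1 else (l.get i).2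
  | .inr (.inr (.inl s)) => flipU e s
  | .inr (.inr (.inr k)) => shiftU e k

/-- The walk of the theorem: every generator and its adjoint. -/
noncomputable def walkOf {ι : Type*} [Fintype ι] [Nonempty ι] (g : ι → Alg M)
    (hg : ∀ i, g i ∈ unitary (Alg M)) : Walk M where
  size := Fintype.card (ι × Bool)
  size_pos := Fintype.card_pos
  g i := let p := (Fintype.equivFin (ι × Bool)).symm i
    if p.2 then g p.1 else star (g p.1)
  unit i := by dsimp only; split; exacts [hg _, Unitary.star_mem (hg _)]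
  inv := (Fintype.equivFin (ι × Bool)).symm.trans <|
    ((Equiv.refl ι).prodCongr (Bool.involutive_not.toPerm _)).trans (Fintype.equivFin _)
  g_inv i := by
    simp only [Equiv.trans_apply, Equiv.symm_apply_apply]
    rcases (Fintype.equivFin (ι × Bool)).symm i with ⟨p, b⟩
    cases b <;> simp

theorem walkOf_step {ι : Type*} [Fintype ι] [Nonempty ι] (g : ι → Alg M)
    (hg : ∀ i, g i ∈ unitary (Alg M)) (i : ι) (b : Bool) :
    ∃ k, (walkOf g hg).g k = if b then g i else star (g i) :=
  ⟨Fintype.equivFin _ (i, b), by simp [walkOf]⟩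

theorem stmtErg : Iface.StmtErg.{u} := by
  intro H _ _ _ M K e l hK he hl
  have : NeZero K := ⟨hK.ne'⟩
  have hg : ∀ i, gens e l i ∈ unitary (Alg M) := by
    rintro (_ | ⟨i, b⟩ | s | k)
    · exact one_mem _
    · cases b
      · exact (hl _ (List.get_mem l i)).2.1
      · exact (hl _ (List.get_mem l i)).1
    · exact flipU_unitary he s
    · exact shiftU_unitary he k
  refine ⟨walkOf (gens e l) hg, fun ξ hξ p hp => ?_⟩
  set W := walkOf (gens e l) hg
  have h1 : ∃ i, W.g i = 1 := walkOf_step (gens e l) hg (.inl ()) true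
  have hfl : ∀ s, ∃ i, W.g i = flipU e s := fun s =>
    walkOf_step (gens e l) hg (.inr (.inr (.inl s))) true
  have hsh : ∀ k, ∃ i, W.g i = shiftU e k := fun k =>
    walkOf_step (gens e l) hg (.inr (.inr (.inr k))) true
  obtain ⟨i, hi⟩ := List.get_of_mem hp
  subst hi
  obtain ⟨-, hu, hanti⟩ := hl _ (List.get_mem l i)
  have hz : ∃ k, W.g k = (l.get i).1 := walkOf_step (gens e l) hg (.inr (.inl (i, true))) true
  have hzs : ∃ k, W.g k = star (l.get i).1 :=
    walkOf_step (gens e l) hg (.inr (.inl (i, true))) false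
  have hus : ∃ k, W.g k = (l.get i).2 := walkOf_step (gens e l) hg (.inr (.inl (i, false))) true
  have hanti' : star (l.get i).2 * (l.get i).1 * (l.get i).2 = -(l.get i).1 := by
    have h := congrArg (fun v => -(star (l.get i).2 * v * (l.get i).2)) hanti
    simp only [← mul_assoc, Unitary.star_mul_self_of_mem hu, one_mul, mul_neg, neg_mul, neg_neg]
      at h
    rw [mul_assoc, Unitary.star_mul_self_of_mem hu, mul_one] at h
    exact h.symm
  exact
    { step_z := hz
      step_one := h1
      gap := tendsto_gap W hξ h1 _ _ hus hanti'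
      decr := decr W hξ
      small := fun c hc => by
        refine small W hξ he h1 hfl hsh c ?_
        rcases hc with rfl | rfl | rfl
        exacts [h1, hz, hzs] }

end Vale.Agent.P082.Erg
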