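import Vale.Agent.P082.Wit.Main

/-!
# P082: conjugation averages at a tracial vector

A walk acts on `a ↦ ev ξ a` by a self-adjoint contraction and the iterates become invariant under every step.
-/

namespace Vale.Agent.P082.Erg

open scoped InnerProductSpace
open Filter Topology Wit

universe u

variable {H : Type u} [NormedAddCommGroup H] [InnerProductSpace ℂ H] [CompleteSpace H]
variable {M : VonNeumannAlgebra H} {ξ : H}

/-- `ev ξ` as a linear map. -/
noncomputable def evL (M : VonNeumannAlgebra H) (ξ : H) : Alg M →ₗ[ℂ] H where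
  toFun := ev ξ
  map_add' a b := by simp [ev]
  map_smul' c a := by simp [ev]

theorem evL_apply (a : Alg M) : evL M ξ a = ev ξ a := rfl

theorem ev_sub (a b : Alg M) : ev ξ (a - b) = ev ξ a - ev ξ b := (evL M ξ).map_sub a b

theorem ev_smul (c : ℂ) (a : Alg M) : ev ξ (c • a) = c • ev ξ a := (evL M ξ).map_smul c a

theorem ev_sum {α : Type*} (s : Finset α) (f : α → Alg M) :
    ev ξ (∑ i ∈ s, f i) = ∑ i ∈ s, ev ξ (f i) := map_sum (evL M ξ) f s

theorem ev_mul (a b : Alg M) : ev ξ (a * b) = (a : H →L[ℂ] H) (ev ξ b) := rfl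

theorem norm_mul_left {u : Alg M} (hu : u ∈ unitary (Alg M)) (a : Alg M) :
    ‖ev ξ (u * a)‖ = ‖ev ξ a‖ := by
  rw [ev_mul]
  exact norm_ev_unitary (ξ := ev ξ a) hu

theorem norm_mul_right (hξ : IsTrVec M ξ) {u : Alg M} (hu : u ∈ unitary (Alg M)) (a : Alg M) :
    ‖ev ξ (a * u)‖ = ‖ev ξ a‖ := by
  rw [← hξ.star_norm, star_mul, norm_mul_left (Unitary.star_mem hu), hξ.star_norm]

theorem norm_conj (hξ : IsTrVec M ξ) {u : Alg M} (hu : u ∈ unitary (Alg M)) (a : Alg M) :
    ‖ev ξ (u * a * star u)‖ = ‖ev ξ a‖ := by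
  rw [norm_mul_right hξ (Unitary.star_mem hu), norm_mul_left hu]

theorem inner_conj (hξ : IsTrVec M ξ) (u a b : Alg M) :
    ⟪ev ξ a, ev ξ (u * b * star u)⟫_ℂ = ⟪ev ξ (star u * a * u), ev ξ b⟫_ℂ := by
  rw [inner_ev_ev, inner_ev_ev, star_mul, star_mul, star_star,
    show star a * (u * b * star u) = star a * u * b * star u by simp only [mul_assoc],
    tr_mul_comm hξ]
  simp only [mul_assoc]

variable (W : Walk M)

theorem card_ne : (W.size : ℂ) ≠ 0 := by
  exact_mod_cast W.size_pos.ne'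

/-- `conjAvg` as a linear map. -/
noncomputable def conjL : Alg M →ₗ[ℂ] Alg M where
  toFun := W.conjAvg
  map_add' a b := by simp [Walk.conjAvg, mul_add, add_mul, Finset.sum_add_distrib]
  map_smul' c a := by
    simp only [Walk.conjAvg, mul_smul_comm, smul_mul_assoc, ← Finset.smul_sum, RingHom.id_apply]
    rw [smul_comm]

theorem iterate_eq (n : ℕ) (a : Alg M) : W.conjAvg^[n] a = (conjL W ^ n) a := by
  rw [Module.End.coe_pow]; rfl

theorem iterate_sub (n : ℕ) (a b : Alg M) :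
    W.conjAvg^[n] (a - b) = W.conjAvg^[n] a - W.conjAvg^[n] b := by
  simp only [iterate_eq, map_sub]

theorem conjAvg_eq_avg (a : Alg M) : W.conjAvg a = avg fun i => W.g i * a * star (W.g i) := by
  simp [Walk.conjAvg, avg]

theorem conjAvg_eq_star (a : Alg M) : W.conjAvg a = avg fun i => star (W.g i) * a * W.g i := by
  rw [conjAvg_eq_avg, avg, avg]
  congr 1
  refine (Equiv.sum_comp W.inv fun i => W.g i * a * star (W.g i)).symm.trans ?_
  simp [W.g_inv]

theorem inner_conjAvg (hξ : IsTrVec M ξ) (a b : Alg M) :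
    ⟪ev ξ a, ev ξ (W.conjAvg b)⟫_ℂ = ⟪ev ξ (W.conjAvg a), ev ξ b⟫_ℂ := by
  rw [conjAvg_eq_avg, conjAvg_eq_star W a, avg, avg, ev_smul, ev_smul, ev_sum, ev_sum,
    inner_smul_left, inner_smul_right, inner_sum, sum_inner]
  simp [inner_conj hξ]

theorem inner_iterate (hξ : IsTrVec M ξ) (n : ℕ) (a b : Alg M) :
    ⟪ev ξ a, ev ξ (W.conjAvg^[n] b)⟫_ℂ = ⟪ev ξ (W.conjAvg^[n] a), ev ξ b⟫_ℂ := by
  induction n generalizing a b with
  | zero => rfl
  | succ n ih =>
    rw [Function.iterate_succ_apply' W.conjAvg n b, inner_conjAvg W hξ, ih,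
      ← Function.iterate_succ_apply]

theorem inner_twice (hξ : IsTrVec M ξ) (n : ℕ) (a : Alg M) :
    (⟪ev ξ a, ev ξ (W.conjAvg^[2 * n] a)⟫_ℂ).re = ‖ev ξ (W.conjAvg^[n] a)‖ ^ 2 := by
  rw [two_mul, Function.iterate_add_apply, inner_iterate W hξ, inner_self_eq_norm_sq_to_K]
  norm_cast

/-- The variance of the conjugates. -/
theorem variance (hξ : IsTrVec M ξ) (a : Alg M) :
    avgR (fun i => ‖ev ξ (W.g i * a * star (W.g i)) - ev ξ (W.conjAvg a)‖ ^ 2) =
      ‖ev ξ a‖ ^ 2 - ‖ev ξ (W.conjAvg a)‖ ^ 2 := by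
  set m := ev ξ (W.conjAvg a) with hm
  have hsum : ∑ i, ev ξ (W.g i * a * star (W.g i)) = (W.size : ℂ) • m := by
    rw [hm, Walk.conjAvg, ev_smul, smul_inv_smul₀ (card_ne W), ev_sum]
  have hre : ∑ i, (⟪ev ξ (W.g i * a * star (W.g i)), m⟫_ℂ).re = W.size * ‖m‖ ^ 2 := by
    rw [← Complex.re_sum, ← sum_inner, hsum, inner_smul_left, Complex.conj_natCast,
      inner_self_eq_norm_sq_to_K]
    simp [← Complex.ofReal_pow]
  have hs : (W.size : ℝ) ≠ 0 := by exact_mod_cast W.size_pos.ne'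
  simp only [avgR, @norm_sub_sq ℂ, RCLike.re_to_complex, norm_conj hξ (W.unit _),
    Finset.sum_add_distrib, Finset.sum_sub_distrib, Finset.sum_const, Finset.card_univ,
    Fintype.card_fin, nsmul_eq_mul, ← Finset.mul_sum, hre]
  field_simp
  ring

theorem norm_conjAvg_le (hξ : IsTrVec M ξ) (a : Alg M) :
    ‖ev ξ (W.conjAvg a)‖ ≤ ‖ev ξ a‖ := by
  have h := variance W hξ a
  have h0 : 0 ≤ avgR fun i => ‖ev ξ (W.g i * a * star (W.g i)) - ev ξ (W.conjAvg a)‖ ^ 2 := by
    unfold avgR; positivity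
  exact (sq_le_sq₀ (norm_nonneg _) (norm_nonneg _)).1 (by linarith)

theorem antitone_norm (hξ : IsTrVec M ξ) (a : Alg M) :
    Antitone fun n => ‖ev ξ (W.conjAvg^[n] a)‖ :=
  antitone_nat_of_succ_le fun n => by
    rw [Function.iterate_succ_apply']; exact norm_conjAvg_le W hξ _

theorem decr (hξ : IsTrVec M ξ) (Q : Alg M) (n₀ n : ℕ) (h : n₀ ≤ n) :
    ‖ev ξ (W.conjAvg^[n] Q)‖ ^ 2 ≤ (⟪ev ξ Q, ev ξ (W.conjAvg^[2 * n₀] Q)⟫_ℂ).re := by
  rw [inner_twice W hξ]
  exact pow_le_pow_left₀ (norm_nonneg _) (antitone_norm W hξ Q h) 2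

/-- Distance between the conjugate by one step and the average. -/
theorem tendsto_step_avg (hξ : IsTrVec M ξ) (a : Alg M) (i : Fin W.size) :
    Tendsto (fun n => ev ξ (W.g i * W.conjAvg^[n] a * star (W.g i)) -
      ev ξ (W.conjAvg^[n + 1] a)) atTop (𝓝 0) := by
  set b : ℕ → ℝ := fun n => ‖ev ξ (W.conjAvg^[n] a)‖ ^ 2 with hb
  have hmono : Antitone b := fun p q h =>
    pow_le_pow_left₀ (norm_nonneg _) (antitone_norm W hξ a h) 2
  have hbd : BddBelow (Set.range b) := ⟨0, by rintro _ ⟨n, rfl⟩; positivity⟩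
  have hlim := tendsto_atTop_ciInf hmono hbd
  have hdiff : Tendsto (fun n => (W.size : ℝ) * (b n - b (n + 1))) atTop (𝓝 0) := by
    simpa using (hlim.sub (hlim.comp (tendsto_add_atTop_nat 1))).const_mul (W.size : ℝ)
  have hs := hdiff.sqrt
  rw [Real.sqrt_zero] at hs
  refine squeeze_zero_norm (fun n => ?_) hs
  refine Real.le_sqrt_of_sq_le ?_
  have h := variance W hξ (W.conjAvg^[n] a)
  rw [← Function.iterate_succ_apply' W.conjAvg n a] at h
  simp only [hb]
  rw [← h, avgR, Fintype.card_fin, mul_inv_cancel_left₀ (by exact_mod_cast W.size_pos.ne')]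
  exact Finset.single_le_sum (f := fun j => ‖ev ξ (W.g j * W.conjAvg^[n] a * star (W.g j)) -
    ev ξ (W.conjAvg^[n + 1] a)‖ ^ 2) (fun j _ => sq_nonneg _) (Finset.mem_univ i)

/-- The iterates become invariant under every step. -/
theorem tendsto_step (hξ : IsTrVec M ξ) (h1 : ∃ i, W.g i = 1) (a c : Alg M)
    (hc : ∃ i, W.g i = c) :
    Tendsto (fun n => ev ξ (c * W.conjAvg^[n] a * star c) - ev ξ (W.conjAvg^[n] a))
      atTop (𝓝 0) := by
  obtain ⟨j, hj⟩ := h1
  obtain ⟨i, rfl⟩ := hc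
  have h := (tendsto_step_avg W hξ a i).sub (tendsto_step_avg W hξ a j)
  simpa [hj] using h

/-- A difference by a step conjugation disappears under iteration. -/
theorem tendsto_norm_conj_sub (hξ : IsTrVec M ξ) (h1 : ∃ i, W.g i = 1) (b c : Alg M)
    (hc : ∃ i, W.g i = c) :
    Tendsto (fun n => ‖ev ξ (W.conjAvg^[n] (star c * b * c - b))‖) atTop (𝓝 0) := by
  set d := star c * b * c - b with hd
  have h : Tendsto (fun n => (⟪ev ξ b, ev ξ (c * W.conjAvg^[n] d * star c) -
      ev ξ (W.conjAvg^[n] d)⟫_ℂ).re) atTop (𝓝 0) := by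
    have h' := (Complex.continuous_re.tendsto _).comp
      ((tendsto_const_nhds (x := ev ξ b)).inner (tendsto_step W hξ h1 d c hc) (𝕜 := ℂ))
    rw [inner_zero_right, Complex.zero_re] at h'
    exact h'
  have hsq : Tendsto (fun n => ‖ev ξ (W.conjAvg^[n] d)‖ ^ 2) atTop (𝓝 0) := by
    refine (h.comp (tendsto_id.const_mul_atTop' (show 0 < 2 by norm_num))).congr fun n => ?_
    rw [← inner_twice W hξ]
    simp only [Function.comp_apply, id]
    rw [inner_sub_right, inner_conj hξ, ← inner_sub_left, ← ev_sub]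
  simpa using hsq.sqrt

/-- An element sent to its negative by a step is averaged to zero. -/
theorem tendsto_gap (hξ : IsTrVec M ξ) (h1 : ∃ i, W.g i = 1) (z u : Alg M)
    (hu : ∃ i, W.g i = u) (hz' : star u * z * u = -z) :
    Tendsto (fun n => ‖ev ξ (W.conjAvg^[n] z)‖) atTop (𝓝 0) := by
  have h := (tendsto_norm_conj_sub W hξ h1 z u hu).div_const 2
  rw [zero_div] at h
  refine h.congr fun n => ?_
  rw [hz', show -z - z = (-2 : ℂ) • z by rw [neg_smul, two_smul]; abel, iterate_eq, map_smul,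
    ← iterate_eq, ev_smul, norm_smul]
  simp

theorem word_cons {n : ℕ} (i : Fin W.size) (y : Fin n → Fin W.size) :
    W.word (Fin.cons i y) = W.g i * W.word y := by
  simp [Walk.word, List.ofFn_succ]

/-- Averaging over words is iterating. -/
theorem avg_word (n : ℕ) (a : Alg M) :
    avg (fun y : Fin n → Fin W.size => star (W.word y) * a * W.word y) =
      W.conjAvg^[n] a := by
  induction n generalizing a with
  | zero => simp [avg, Walk.word]
  | succ n ih =>
    rw [Function.iterate_succ_apply, ← ih, conjAvg_eq_star, avg, avg, avg,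
      ← (Fin.consEquiv fun _ : Fin (n + 1) => Fin W.size).sum_comp, Fintype.sum_prod_type,
      Finset.sum_comm]
    simp only [Fin.consEquiv, Equiv.coe_fn_mk, word_cons, star_mul, Fintype.card_fun,
      Fintype.card_fin, mul_smul_comm, smul_mul_assoc, Finset.mul_sum, Finset.sum_mul,
      ← Finset.smul_sum, smul_smul, mul_assoc]
    congr 1
    push_cast
    rw [pow_succ, mul_inv, mul_comm]

end Vale.Agent.P082.Erg
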